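import Vale.Agent.P106.U.H535.Gprod
import Vale.Agent.P106.TV.MStepG

/-!
# P106 / U / H535 : tuples of copies chosen in every cell (input of the WK case of the two-cap lemma)

* `pickC` : choice of a good tuple of copies (`cop`).
* `gcell` : the chains `Ch` of the M-step for all letters of a finite set `A` of pairs, one tuple of copies per value
  of `(D, Θ)`; errors only on the good values, no term for the bad ones.
* `mixc` : from the cells to the base data, the map may depend on the cell.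
-/

set_option autoImplicit false

namespace Vale.Agent.P106.U.H535

open Finset Vale.Agent.P127 Vale.Agent.P127.Stk Vale.Agent.P127.U.Pin Vale.Agent.P127.TV
open Vale.Agent.P106.TV (cop cop_supp cop_ex1 cop_ex2)

variable {Ω : Type} [Fintype Ω] {S T T' U V Z X : Type*}

section pick

variable {κ₂ κ₃ : Type} [Fintype κ₂] [DecidableEq κ₂] [Fintype κ₃] [DecidableEq κ₃]

/-- choice of a good tuple -/
theorem pickC (L : Law Ω) (g : (κ₂ → Ω) → (κ₃ → Ω) → ℝ) (hg : ∀ z y, 0 ≤ g z y)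
    (G : (κ₂ → Ω) → (κ₃ → Ω) → Prop) {γ : ℝ} (hγ : 0 < γ)
    (hG : γ ≤ (cop L κ₂).ex fun z => (cop L κ₃).ex fun y => Law.ind (G z y)) :
    ∃ z y, (∀ i, 0 < L.w (z i)) ∧ (∀ j, 0 < L.w (y j)) ∧ G z y ∧
      g z y ≤ ((cop L κ₂).ex fun z => (cop L κ₃).ex fun y => g z y) / γ := by
  classical
  set t : Finset ((κ₂ → Ω) × (κ₃ → Ω)) := univ.filter fun p =>
    0 < (cop L κ₂).w p.1 ∧ 0 < (cop L κ₃).w p.2 ∧ G p.1 p.2 with ht
  have htn : t.Nonempty := by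
    by_contra hcon
    rw [Finset.not_nonempty_iff_eq_empty] at hcon
    have h1 : ((cop L κ₂).ex fun z => (cop L κ₃).ex fun y => Law.ind (G z y)) ≤
        (cop L κ₂).ex fun _ => (cop L κ₃).ex fun _ => 0 := by
      refine Law.ex_mono _ fun z hz => Law.ex_mono _ fun y hy => ?_
      rw [Law.ind_not]
      intro hGzy
      have : (z, y) ∈ t := by
        rw [ht, Finset.mem_filter]
        exact ⟨Finset.mem_univ _, hz, hy, hGzy⟩
      rw [hcon] at this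
      exact absurd this (Finset.notMem_empty _)
    simp only [Law.ex_const] at h1
    linarith
  obtain ⟨p, hp, hmin⟩ := Finset.exists_min_image t (fun p => g p.1 p.2) htn
  rw [ht, Finset.mem_filter] at hp
  obtain ⟨-, p1, p2, p3⟩ := hp
  refine ⟨p.1, p.2, fun i => cop_supp p1 i, fun j => cop_supp p2 j, p3, ?_⟩
  rw [le_div_iff₀ hγ]
  have h3 : g p.1 p.2 * ((cop L κ₂).ex fun z => (cop L κ₃).ex fun y => Law.ind (G z y)) ≤
      (cop L κ₂).ex fun z => (cop L κ₃).ex fun y => g z y := by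
    rw [← Law.ex_const_mul]
    refine Law.ex_mono _ fun z hz => ?_
    rw [← Law.ex_const_mul]
    refine Law.ex_mono _ fun y hy => ?_
    by_cases hGzy : G z y
    · rw [Law.ind_of hGzy, mul_one]
      refine hmin (z, y) ?_
      rw [ht, Finset.mem_filter]
      exact ⟨Finset.mem_univ _, hz, hy, hGzy⟩
    · rw [Law.ind_not hGzy, mul_zero]
      exact hg _ _
  exact (mul_le_mul_of_nonneg_left hG (hg _ _)).trans h3

/-- the average of a sum over the letters of a finite set -/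
theorem cop_sum (L : Law Ω) (A : Finset (κ₂ × κ₃ × κ₃)) (hA : ∀ p ∈ A, p.2.1 ≠ p.2.2)
    (f : Ω → Ω → Ω → ℝ) :
    ((cop L κ₂).ex fun z => (cop L κ₃).ex fun y => ∑ p ∈ A, f (z p.1) (y p.2.1) (y p.2.2)) =
      A.card * av3 L f := by
  have hs1 : ∀ (M : Law (κ₃ → Ω)) (f : κ₂ × κ₃ × κ₃ → (κ₃ → Ω) → ℝ),
      M.ex (fun y => ∑ p ∈ A, f p y) = ∑ p ∈ A, M.ex (f p) := by
    intro M f
    unfold Law.ex
    rw [Finset.sum_comm]
    exact Finset.sum_congr rfl fun y _ => by rw [Finset.mul_sum]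
  have hs2 : ∀ (M : Law (κ₂ → Ω)) (f : κ₂ × κ₃ × κ₃ → (κ₂ → Ω) → ℝ),
      M.ex (fun y => ∑ p ∈ A, f p y) = ∑ p ∈ A, M.ex (f p) := by
    intro M f
    unfold Law.ex
    rw [Finset.sum_comm]
    exact Finset.sum_congr rfl fun y _ => by rw [Finset.mul_sum]
  have h0 : ∀ z : κ₂ → Ω, (cop L κ₃).ex (fun y => ∑ p ∈ A, f (z p.1) (y p.2.1) (y p.2.2)) =
      ∑ p ∈ A, (cop L κ₃).ex (fun y => f (z p.1) (y p.2.1) (y p.2.2)) := fun z =>
    hs1 (cop L κ₃) (fun p y => f (z p.1) (y p.2.1) (y p.2.2))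
  rw [Law.ex_congr (cop L κ₂) fun z _ => h0 z,
    hs2 (cop L κ₂) (fun p z => (cop L κ₃).ex (fun y => f (z p.1) (y p.2.1) (y p.2.2)))]
  have h3 : ∀ p ∈ A, (cop L κ₂).ex (fun z => (cop L κ₃).ex (fun y =>
      f (z p.1) (y p.2.1) (y p.2.2))) = av3 L f := by
    intro p hp
    have h1 : ∀ z : κ₂ → Ω, (cop L κ₃).ex (fun y => f (z p.1) (y p.2.1) (y p.2.2)) =
        L.ex (fun b => L.ex (fun c => f (z p.1) b c)) := fun z =>
      cop_ex2 L (hA p hp) (fun b c => f (z p.1) b c)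
    rw [Law.ex_congr (cop L κ₂) fun z _ => h1 z]
    exact cop_ex1 L p.1 (fun a => L.ex (fun b => L.ex (fun c => f a b c)))
  rw [Finset.sum_congr rfl h3, Finset.sum_const, nsmul_eq_mul]

/-- choice of a good tuple with a small sum of errors -/
theorem pickS (L : Law Ω) (A : Finset (κ₂ × κ₃ × κ₃)) (hA : ∀ p ∈ A, p.2.1 ≠ p.2.2)
    (f : Ω → Ω → Ω → ℝ) (hf : ∀ a b c, 0 ≤ f a b c) (G : (κ₂ → Ω) → (κ₃ → Ω) → Prop) {γ m : ℝ}
    (hγ : 0 < γ) (hG : γ ≤ (cop L κ₂).ex fun z => (cop L κ₃).ex fun y => Law.ind (G z y))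
    (hm : av3 L f ≤ m) :
    ∃ z y, (∀ i, 0 < L.w (z i)) ∧ (∀ j, 0 < L.w (y j)) ∧ G z y ∧
      ∀ p ∈ A, f (z p.1) (y p.2.1) (y p.2.2) ≤ A.card * m / γ := by
  obtain ⟨z, y, h1, h2, h3, h4⟩ := pickC L (fun (z : κ₂ → Ω) (y : κ₃ → Ω) =>
    ∑ p ∈ A, f (z p.1) (y p.2.1) (y p.2.2)) (fun z y => Finset.sum_nonneg fun p _ => hf _ _ _)
    G hγ hG
  refine ⟨z, y, h1, h2, h3, fun p hp => ?_⟩
  rw [cop_sum L A hA f] at h4
  have h5 : f (z p.1) (y p.2.1) (y p.2.2) ≤ ∑ p ∈ A, f (z p.1) (y p.2.1) (y p.2.2) :=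
    Finset.single_le_sum (f := fun p => f (z p.1) (y p.2.1) (y p.2.2)) (fun q _ => hf _ _ _) hp
  refine (h5.trans h4).trans (div_le_div_of_nonneg_right ?_ hγ.le)
  exact mul_le_mul_of_nonneg_left hm (Nat.cast_nonneg _)

end pick

section cell

variable (P : Law Ω) (D : Ω → U) (Θ : Ω → V) (W : Ω → S) (E : Ω → Z) (e : U → S → X)

/-- the next block of the direction -/
def yc (ω : Ω) : X := e (D ω) (W ω)

/-- the cell with the own letter -/
def Dt (ω : Ω) : U × V := (D ω, Θ ω)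

/-- the error of the chain in the cell `d` with the own letter `θ` -/
noncomputable def erD (d : U) (θ θ' : V) (x x' : X) : ℝ :=
  erC (P.cond (Dt D Θ) (d, θ)) (P.cond (Dt D Θ) (d, θ')) W E (fun a => e d (W a)) x x'

theorem erD_nonneg (d : U) (θ θ' : V) (x x' : X) : 0 ≤ erD P D Θ W E e d θ θ' x x' :=
  erC_nonneg _ _ _ _ _ _ _

/-- the chain in one cell -/
theorem ch_cell {ω a₀ : Ω} (hω : 0 < P.w ω) (ha : 0 < P.w a₀) (hD : D a₀ = D ω) (x x' : X) :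
    SubC (P.cond (Dt D Θ) (Dt D Θ ω)) (P.cond (Dt D Θ) (Dt D Θ ω))
      (Ch P D Θ W E (yc D W e) (Θ a₀) x x') (erD P D Θ W E e (D ω) (Θ ω) (Θ a₀) x x') := by
  have hDts : ∀ ω, 0 < P.w ω → ∀ a, 0 < (P.cond (Dt D Θ) (Dt D Θ ω)).w a →
      D a = D ω ∧ Θ a = Θ ω ∧ 0 < P.w a := fun ω hω a h' => by
    have h1 := Vale.Agent.P127.U.Pin.cond_supp P (Dt D Θ) (P.pr_pos (Dt D Θ) hω) h'
    exact ⟨(Prod.mk.inj h1.1).1, (Prod.mk.inj h1.1).2, h1.2⟩
  have hye : ∀ a, D a = D ω → e (D ω) (W a) = yc D W e a := by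
    intro a h
    rw [← h]
    rfl
  have q2 : P.cond (Dt D Θ) (D ω, Θ a₀) = P.cond (Dt D Θ) (Dt D Θ a₀) := by
    rw [← hD]
    rfl
  have q3 := chain5 (P.cond (Dt D Θ) (Dt D Θ ω)) (P.cond (Dt D Θ) (Dt D Θ a₀)) W E
    (fun a => e (D ω) (W a)) x x'
  have q4 : erD P D Θ W E e (D ω) (Θ ω) (Θ a₀) x x' =
      erC (P.cond (Dt D Θ) (Dt D Θ ω)) (P.cond (Dt D Θ) (Dt D Θ a₀)) W E
        (fun a => e (D ω) (W a)) x x' := by
    unfold erD
    rw [q2]
    rfl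
  rw [q4]
  refine q3.mono ?_ le_rfl
  rintro a b ⟨a₁, a₂, a₃, a₄, p0, p1, p2, p3, p4, p5, r1, r2, r3, r4, r5, r6, r7⟩
  obtain ⟨v1, v2, v3⟩ := hDts ω hω a p0
  obtain ⟨w1, w2, w3⟩ := hDts ω hω b p5
  obtain ⟨i1, i2, i3⟩ := hDts ω hω a₁ p1
  obtain ⟨j1, j2, j3⟩ := hDts a₀ ha a₂ p2
  obtain ⟨k1, k2, k3⟩ := hDts a₀ ha a₃ p3
  obtain ⟨l1, l2, l3⟩ := hDts ω hω a₄ p4
  rw [hD] at j1 k1
  refine ⟨a₁, a₂, a₃, a₄, ⟨v3, i3, j3, k3, l3, w3⟩,
    ⟨i1.trans v1.symm, j1.trans v1.symm, k1.trans v1.symm, l1.trans v1.symm,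
      w1.trans v1.symm⟩,
    ⟨i2.trans v2.symm, j2, k2, l2.trans v2.symm, w2.trans v2.symm⟩, ⟨r1, r2, r3, r4, r5⟩, ?_⟩
  have r6' : e (D ω) (W a₁) = x := r6
  have r7' : e (D ω) (W a₄) = x' := r7
  have m1 : yc D W e a₂ = x := by rw [← hye a₂ j1, ← r2]; exact r6'
  have m2 : yc D W e a₃ = x' := by rw [← hye a₃ k1, r4]; exact r7'
  exact ⟨(hye a₁ i1).symm.trans r6', m1, m2, (hye a₄ l1).symm.trans r7'⟩

/-- the average error over three independent copies in the cell -/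
theorem erD_av : ∃ F : Ω → ℝ, (∀ ω, 0 ≤ F ω) ∧
    P.ex F ≤ 8 * Real.sqrt (mi P (yc D W e) E (Dt D Θ)) + 64 * Real.sqrt (mi P Θ W D) ∧
    ∀ ω, 0 < P.w ω → av3 (P.cond D (D ω)) (fun a b c =>
      erD P D Θ W E e (D ω) (Θ ω) (Θ a) (yc D W e b) (yc D W e c)) ≤ F ω := by
  classical
  set y : Ω → X := yc D W e with hy
  set Dt' : Ω → U × V := Dt D Θ with hDt
  have hDts : ∀ ω, 0 < P.w ω → ∀ a, 0 < (P.cond Dt' (Dt' ω)).w a →
      D a = D ω ∧ Θ a = Θ ω ∧ 0 < P.w a := fun ω hω a h' => by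
    have h1 := Vale.Agent.P127.U.Pin.cond_supp P Dt' (P.pr_pos Dt' hω) h'
    exact ⟨(Prod.mk.inj h1.1).1, (Prod.mk.inj h1.1).2, h1.2⟩
  have hye : ∀ ω a, D a = D ω → e (D ω) (W a) = y a := by
    intro ω a h
    rw [← h]
    rfl
  let J : Ω → ℝ := fun ω => il (P.cond Dt' (Dt' ω)) y E
  let K : Ω → ℝ := fun ω => dl (P.cond Dt' (Dt' ω)) W (P.cond D (D ω)) W
  have hJ0 : ∀ ω, 0 ≤ J ω := fun ω => il_nonneg _ _ _
  have hK0 : ∀ ω, 0 ≤ K ω := fun ω => dl_nonneg _ _ _ _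
  have hJ : P.ex J ≤ 4 * Real.sqrt (mi P y E Dt') := pin_il P y E Dt'
  have hK : P.ex K ≤ 4 * Real.sqrt (mi P Θ W D) := pin_dl P Θ W D
  have hJ2 : P.ex (fun ω => (P.cond D (D ω)).ex J) = P.ex J :=
    Vale.Agent.P127.U.Pin.ex_cond P D J
  have hK2 : P.ex (fun ω => (P.cond D (D ω)).ex K) = P.ex K :=
    Vale.Agent.P127.U.Pin.ex_cond P D K
  refine ⟨fun ω => J ω + (P.cond D (D ω)).ex J + 8 * K ω + 8 * (P.cond D (D ω)).ex K,
    fun ω => ?_, ?_, fun ω hω => ?_⟩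
  · have a1 := hJ0 ω
    have a2 := hK0 ω
    have a3 : 0 ≤ (P.cond D (D ω)).ex J := Law.ex_nonneg _ fun ω' _ => hJ0 ω'
    have a4 : 0 ≤ (P.cond D (D ω)).ex K := Law.ex_nonneg _ fun ω' _ => hK0 ω'
    dsimp only
    positivity
  · rw [P.ex_add, P.ex_add, P.ex_add, P.ex_const_mul, P.ex_const_mul, hJ2, hK2]
    linarith
  · set R := P.cond D (D ω) with hR
    have hRs : ∀ a, 0 < R.w a → D a = D ω ∧ 0 < P.w a := fun a ha =>
      Vale.Agent.P127.U.Pin.cond_supp P D (P.pr_pos D hω) ha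
    have c1 : av3 R (fun a b c => erD P D Θ W E e (D ω) (Θ ω) (Θ a) (y b) (y c)) ≤
        R.ex (fun a => J ω + J a + 8 * K ω + 8 * K a) := by
      unfold av3
      refine R.ex_mono fun a ha => ?_
      obtain ⟨u1, u2⟩ := hRs a ha
      have d1 := chain5_err (P.cond Dt' (Dt' ω)) (P.cond Dt' (Dt' a)) R W E (e (D ω))
      have d2 : R.ex (fun b => R.ex (fun c => erD P D Θ W E e (D ω) (Θ ω) (Θ a) (y b) (y c))) =
          R.ex (fun b => R.ex (fun c => erC (P.cond Dt' (Dt' ω)) (P.cond Dt' (Dt' a)) W E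
            (fun a => e (D ω) (W a)) (e (D ω) (W b)) (e (D ω) (W c)))) := by
        refine R.ex_congr fun b hb => R.ex_congr fun c hc => ?_
        rw [hye ω b (hRs b hb).1, hye ω c (hRs c hc).1]
        unfold erD
        have q2 : P.cond Dt' (D ω, Θ a) = P.cond Dt' (Dt' a) := by
          rw [← u1]
          rfl
        rw [← hDt, q2]
        rfl
      rw [d2]
      refine d1.trans ?_
      have d3 : il (P.cond Dt' (Dt' ω)) (fun a => e (D ω) (W a)) E = J ω :=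
        il_congr _ E fun a' ha' => hye ω a' (hDts ω hω a' ha').1
      have d4 : il (P.cond Dt' (Dt' a)) (fun a => e (D ω) (W a)) E = J a :=
        il_congr _ E fun a' ha' => hye ω a' ((hDts a u2 a' ha').1.trans u1)
      have d5 : dl (P.cond Dt' (Dt' a)) W R W = K a := by
        simp only [K, hR]
        rw [u1]
      rw [d3, d4, d5]
    refine c1.trans (le_of_eq ?_)
    simp only [R.ex_add, R.ex_const_mul, R.ex_const]
    rfl

variable {κ₂ κ₃ : Type} [Fintype κ₂] [DecidableEq κ₂] [Fintype κ₃] [DecidableEq κ₃]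

/-- **per cell**: a finite set `A` of letters, one good tuple of copies for every value of `(D, Θ)` -/
theorem gcell (A : Finset (κ₂ × κ₃ × κ₃)) (hA : ∀ p ∈ A, p.2.1 ≠ p.2.2)
    (Good : U × V → (κ₂ → V) → (κ₃ → X) → Prop) (Bad : U × V → Prop) {γ : ℝ} (hγ : 0 < γ)
    (hgood : ∀ ω, 0 < P.w ω → ¬ Bad (Dt D Θ ω) →
      γ ≤ (cop (P.cond D (D ω)) κ₂).ex fun z => (cop (P.cond D (D ω)) κ₃).ex fun y =>
        Law.ind (Good (Dt D Θ ω) (fun i => Θ (z i)) (fun j => yc D W e (y j)))) :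
    ∃ (θs : U × V → κ₂ → V) (xs : U × V → κ₃ → X) (er : U × V → ℝ), (∀ δ, 0 ≤ er δ) ∧
      (∀ ω, 0 < P.w ω → ¬ Bad (Dt D Θ ω) → Good (Dt D Θ ω) (θs (Dt D Θ ω)) (xs (Dt D Θ ω)) ∧
        (∀ i, ∃ a, 0 < P.w a ∧ D a = D ω ∧ Θ a = θs (Dt D Θ ω) i) ∧
        (∀ j, ∃ a, 0 < P.w a ∧ D a = D ω ∧ yc D W e a = xs (Dt D Θ ω) j) ∧
        ∀ p ∈ A, SubC (P.cond (Dt D Θ) (Dt D Θ ω)) (P.cond (Dt D Θ) (Dt D Θ ω))
          (Ch P D Θ W E (yc D W e) (θs (Dt D Θ ω) p.1) (xs (Dt D Θ ω) p.2.1) (xs (Dt D Θ ω) p.2.2))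
          (er (Dt D Θ ω))) ∧
      P.ex (fun ω => er (Dt D Θ ω)) ≤ A.card * (8 * Real.sqrt (mi P (yc D W e) E (Dt D Θ)) +
        64 * Real.sqrt (mi P Θ W D)) / γ := by
  classical
  obtain ⟨F, hF0, hF1, hF2⟩ := erD_av P D Θ W E e
  have hne : Nonempty Ω := by
    by_contra hcon
    rw [not_nonempty_iff] at hcon
    have := P.sum_one
    simp at this
  obtain ⟨ω0⟩ := hne
  have hch : ∀ δ : U × V, ∃ (θs : κ₂ → V) (xs : κ₃ → X) (r : ℝ), 0 ≤ r ∧
      ∀ ω, 0 < P.w ω → Dt D Θ ω = δ → r ≤ A.card * F ω / γ ∧ (¬ Bad δ → Good δ θs xs ∧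
        (∀ i, ∃ a, 0 < P.w a ∧ D a = D ω ∧ Θ a = θs i) ∧
        (∀ j, ∃ a, 0 < P.w a ∧ D a = D ω ∧ yc D W e a = xs j) ∧
        ∀ p ∈ A, SubC (P.cond (Dt D Θ) δ) (P.cond (Dt D Θ) δ)
          (Ch P D Θ W E (yc D W e) (θs p.1) (xs p.2.1) (xs p.2.2)) r) := by
    intro δ
    by_cases hδ : ∃ ω, 0 < P.w ω ∧ Dt D Θ ω = δ ∧ ¬ Bad δ
    · -- the minimal value of `F` over the cell
      obtain ⟨ω₀, hω₀, hδ₀, hb⟩ := hδ
      set t : Finset Ω := univ.filter fun ω => 0 < P.w ω ∧ Dt D Θ ω = δ with ht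
      have htn : t.Nonempty := ⟨ω₀, by rw [ht, Finset.mem_filter]; exact ⟨mem_univ _, hω₀, hδ₀⟩⟩
      obtain ⟨ω, hω', hmin⟩ := Finset.exists_min_image t F htn
      rw [ht, Finset.mem_filter] at hω'
      obtain ⟨-, hω, hδω⟩ := hω'
      have hDω : δ = (D ω, Θ ω) := hδω.symm
      have hs : ∀ a, 0 < (P.cond D (D ω)).w a → D a = D ω ∧ 0 < P.w a := fun a ha =>
        Vale.Agent.P127.U.Pin.cond_supp P D (P.pr_pos D hω) ha
      obtain ⟨z, y, hz, hy, hG, hle⟩ := pickS (P.cond D (D ω)) A hA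
        (fun a b c => erD P D Θ W E e (D ω) (Θ ω) (Θ a) (yc D W e b) (yc D W e c))
        (fun a b c => erD_nonneg _ _ _ _ _ _ _ _ _ _ _)
        (fun z y => Good (Dt D Θ ω) (fun i => Θ (z i)) (fun j => yc D W e (y j))) hγ
        (hgood ω hω (by rw [hδω]; exact hb)) (hF2 ω hω)
      refine ⟨fun i => Θ (z i), fun j => yc D W e (y j), A.card * F ω / γ,
        div_nonneg (mul_nonneg (Nat.cast_nonneg _) (hF0 ω)) hγ.le,
        fun ω₁ hω₁ hδ₁ => ?_⟩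
      have hD1 : D ω₁ = D ω := (Prod.mk.inj (hδ₁.trans hDω)).1
      refine ⟨?_, fun _ => ⟨by rw [← hδω]; exact hG, fun i => ?_, fun j => ?_, fun p hp => ?_⟩⟩
      · refine div_le_div_of_nonneg_right (mul_le_mul_of_nonneg_left (hmin ω₁ ?_)
          (Nat.cast_nonneg _)) hγ.le
        rw [ht, Finset.mem_filter]
        exact ⟨mem_univ _, hω₁, hδ₁⟩
      · exact ⟨z i, (hs _ (hz i)).2, (hs _ (hz i)).1.trans hD1.symm, rfl⟩
      · exact ⟨y j, (hs _ (hy j)).2, (hs _ (hy j)).1.trans hD1.symm, rfl⟩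
      · have h5 := ch_cell P D Θ W E e hω (hs _ (hz p.1)).2 (hs _ (hz p.1)).1
          (yc D W e (y p.2.1)) (yc D W e (y p.2.2))
        rw [hδω] at h5
        exact h5.mono (fun _ _ h => h) (hle p hp)
    · refine ⟨fun _ => Θ ω0, fun _ => yc D W e ω0, 0, le_rfl, fun ω hω hδω => ⟨?_, fun hb => ?_⟩⟩
      · exact div_nonneg (mul_nonneg (Nat.cast_nonneg _) (hF0 ω)) hγ.le
      · exact absurd ⟨ω, hω, hδω, hb⟩ hδ
  choose θs xs er he0 he using hch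
  refine ⟨θs, xs, er, he0, fun ω hω hb => (he _ ω hω rfl).2 hb, ?_⟩
  have h1 : P.ex (fun ω => er (Dt D Θ ω)) ≤ P.ex (fun ω => (A.card / γ) * F ω) := by
    refine P.ex_mono fun ω hω => (he _ ω hω rfl).1.trans (le_of_eq ?_)
    ring
  rw [P.ex_const_mul] at h1
  refine h1.trans ?_
  rw [mul_div_right_comm]
  exact mul_le_mul_of_nonneg_left hF1 (div_nonneg (Nat.cast_nonneg _) hγ.le)

end cell

/-! ### the common choice without the term of the bad values -/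

section common

variable (P : Law Ω) (B : Ω → U) (C : Ω → V) (Θ : Ω → T) (W : Ω → S) (E : Ω → Z) (e : U × V → S → X)

/-- **[GPROD]**, the bad values only lose `Good` -/
theorem gprod' (Good : U × T → T → X → X → Prop) (Bad : U × T → Prop) {γ : ℝ} (hγ : 0 < γ) (hγ1 : γ ≤ 1)
    (hgood : ∀ ω, 0 < P.w ω → ¬ Bad (Ba B Θ ω) → γ ≤ av3 (P.cond B (B ω)) (fun a b c =>
      Law.ind (Good (Ba B Θ ω) (Θ a) (yb B C W e b) (yb B C W e c)))) :
    ∃ (θ' : U × T → T) (x x' : U × T → X) (er : U × T → ℝ), (∀ β, 0 ≤ er β) ∧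
      (∀ ω, 0 < P.w ω → (¬ Bad (Ba B Θ ω) →
        Good (Ba B Θ ω) (θ' (Ba B Θ ω)) (x (Ba B Θ ω)) (x' (Ba B Θ ω))) ∧
        ∃ a b c, 0 < P.w a ∧ 0 < P.w b ∧ 0 < P.w c ∧ B a = B ω ∧ B b = B ω ∧ B c = B ω ∧
          Θ a = θ' (Ba B Θ ω) ∧ yb B C W e b = x (Ba B Θ ω) ∧ yb B C W e c = x' (Ba B Θ ω)) ∧
      (∀ ω, 0 < P.w ω → SubC (P.cond (Ba B Θ) (Ba B Θ ω)) (P.cond (Ba B Θ) (Ba B Θ ω))
        (Ch P (St B C) Θ W E (yb B C W e) (θ' (Ba B Θ ω)) (x (Ba B Θ ω)) (x' (Ba B Θ ω)))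
        (er (Ba B Θ ω))) ∧
      P.ex (fun ω => er (Ba B Θ ω)) ≤
        (8 * Real.sqrt (mi P (yb B C W e) E (fun ω => (St B C ω, Θ ω))) +
          64 * Real.sqrt (mi P Θ W (St B C)) + 4 * Real.sqrt (mi P C Θ B) +
          8 * Real.sqrt (mi P C (yb B C W e) B)) / γ := by
  obtain ⟨θ', x, x', er, h1, h2, h3, h4⟩ := gprod P B C Θ W E e
    (fun β θ x x' => ¬ Bad β → Good β θ x x') (fun _ => False) hγ (fun ω hω _ => by
      by_cases hb : Bad (Ba B Θ ω)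
      · refine hγ1.trans (le_of_eq ?_)
        have : av3 (P.cond B (B ω)) (fun a b c => Law.ind (¬ Bad (Ba B Θ ω) →
            Good (Ba B Θ ω) (Θ a) (yb B C W e b) (yb B C W e c))) =
            av3 (P.cond B (B ω)) (fun _ _ _ => 1) :=
          av3_congr fun a b c _ _ _ => Law.ind_of fun h => absurd hb h
        rw [this]
        unfold av3
        simp only [Law.ex_const]
      · refine (hgood ω hω hb).trans (av3_mono fun a b c _ _ _ => ?_)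
        by_cases hG : Good (Ba B Θ ω) (Θ a) (yb B C W e b) (yb B C W e c)
        · rw [Law.ind_of hG, Law.ind_of fun _ => hG]
        · rw [Law.ind_not hG, Law.ind_not fun h => hG (h hb)])
  refine ⟨θ', x, x', er, h1, fun ω hω => h2 ω hω not_false, h3, h4.trans (le_of_eq ?_)⟩
  have : P.ex (fun _ => Law.ind False) = 0 := by
    rw [P.ex_const, Law.ind_not not_false]
  rw [this, add_zero]

end common

/-! ### from the cells to the base data -/

/-- **mixing over the cells**, the relation may depend on the cell -/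
theorem mixc (P : Law Ω) (B : Ω → U) (C : Ω → V) (R : U → V → Ω → Ω → Prop) (er : U → V → ℝ)
    (h : ∀ ω, 0 < P.w ω → SubC (P.cond (fun ω => (B ω, C ω)) (B ω, C ω))
      (P.cond (fun ω => (B ω, C ω)) (B ω, C ω)) (R (B ω) (C ω)) (er (B ω) (C ω))) :
    (∀ ω, 0 < P.w ω → SubC (P.cond B (B ω)) (P.cond B (B ω))
      (fun a b => C a = C b ∧ R (B ω) (C a) a b) ((P.cond B (B ω)).ex fun a => er (B ω) (C a))) ∧
    P.ex (fun ω => (P.cond B (B ω)).ex fun a => er (B ω) (C a)) = P.ex (fun ω => er (B ω) (C ω)) := by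
  constructor
  · intro ω hω
    refine SubC.mix (P.cond B (B ω)) C (fun v => R (B ω) v) (fun v => er (B ω) v) fun a ha => ?_
    obtain ⟨e1, e2⟩ := Vale.Agent.P127.U.Pin.cond_supp P B (P.pr_pos B hω) ha
    have h3 : (P.cond B (B ω)).cond C (C a) = P.cond (fun ω => (B ω, C ω)) (B a, C a) := by
      rw [← e1, Vale.Agent.P127.S.StepEx.cond_cond e2]
      exact cond_eq P (A := fun ω => (C ω, B ω)) (B := fun ω => (B ω, C ω)) e2 fun _ _ => by
        simp only [Prod.mk.injEq]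
        tauto
    rw [h3, ← e1]
    exact h a e2
  · rw [← Vale.Agent.P127.U.Pin.ex_cond P B (fun ω => er (B ω) (C ω))]
    refine P.ex_congr fun ω hω => Law.ex_congr _ fun a ha => ?_
    rw [(Vale.Agent.P127.U.Pin.cond_supp P B (P.pr_pos B hω) ha).1]

end Vale.Agent.P106.U.H535
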