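import Vale.Agent.P127.TV.MStepC
import Vale.Agent.P127.S.StepEx
import Vale.Agent.P106.U.H833.Near

/-!
# P106 / U / H535 : the input of the two-cap lemma (note 18130 (2)) from F1 and F2, one finite law

Everything abstract, no geometry.

* `mi_cell`, `mi_move`, `mi_long` : the informations of F1 and F2 for other cells, other base data (up to small
  conditional entropies) and for the next letter.
* `cond_eq`, `dl_two` : the conditional laws given two different pieces of data.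
* `mv3`, `pick` : replacement of the law of the copies, choice of one good triple.
* `strips` : approximate self-couplings in the strip cells, with copies drawn in the strip cell, give approximate
  self-couplings of the law given the base data, with ONE triple of copies for all the strip cells.
* `Ch`, `gprod` : the same for the chain of the M-step, all errors in terms of four informations.
* `gprod_le` : the four informations in terms of F1 at the base cap and F2 between the nested caps.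
* `tele_sqrt` : the sum over the steps.
-/

set_option autoImplicit false

namespace Vale.Agent.P106.U.H535

open Finset Vale.Agent.P127 Vale.Agent.P127.Stk Vale.Agent.P127.U.Pin Vale.Agent.P127.TV

variable {Ω : Type} [Fintype Ω] {S T T' U V Z X K₁ K₂ : Type*}

/-! ### informations -/

section info

variable (P : Law Ω)

/-- another cell -/
theorem mi_cell (Y : Ω → S) (C : Ω → T) (C' : Ω → T') (B : Ω → U) :
    mi P Y C' B ≤ mi P Y C B + hc P C' (fun ω => (C ω, B ω)) := by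
  have h1 : mi P Y C' B ≤ mi P Y (fun ω => (C ω, C' ω)) B :=
    mi_mono_right P Y fun ω ω' _ _ e => by
      simp only [Prod.mk.injEq] at e
      exact e.1.2
  have h2 := mi_pair P Y C C' B
  have h3 := mi_le_hc' P Y C' (fun ω => (C ω, B ω))
  linarith

/-- **change of the base data** -/
theorem mi_move (Y : Ω → S) (C : Ω → T) (D : Ω → U) (B : Ω → V) :
    mi P Y C B ≤ mi P Y C D + hc P B (fun ω => (C ω, D ω)) + hc P D B := by
  have h1 : mi P Y C B ≤ mi P Y (fun ω => (D ω, C ω)) B :=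
    mi_mono_right P Y fun ω ω' _ _ e => by
      simp only [Prod.mk.injEq] at e
      exact e.1.2
  have h2 := mi_pair P Y D C B
  have h3 := mi_le_hc' P Y D B
  have h4 : mi P Y C (fun ω => (D ω, B ω)) = mi P Y C (fun ω => (B ω, D ω)) :=
    mi_congr_cond P Y C (fun ω ω' _ _ e => by
      simp only [Prod.mk.injEq] at e ⊢
      exact ⟨e.2, e.1⟩) (fun ω ω' _ _ e => by
      simp only [Prod.mk.injEq] at e ⊢
      exact ⟨e.2, e.1⟩)
  have h5 := mi_pair P Y B C D
  have h6 := mi_pair P Y C B D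
  have h7 : mi P Y (fun ω => (B ω, C ω)) D ≤ mi P Y (fun ω => (C ω, B ω)) D :=
    mi_mono_right P Y fun ω ω' _ _ e => by
      simp only [Prod.mk.injEq] at e ⊢
      exact ⟨e.1.2, e.1.1⟩
  have h8 := mi_nonneg P Y B D
  have h9 := mi_le_hc' P Y B (fun ω => (C ω, D ω))
  linarith

/-- **the next letter**: F1 for the long letter `(z, y)` gives the independence of `y` given `z` -/
theorem mi_long (z : Ω → S) (y : Ω → Z) (E : Ω → T) (D : Ω → U) :
    mi P y E (fun ω => (z ω, D ω)) ≤ mi P (fun ω => (z ω, y ω)) E D := by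
  have h1 := mi_pair P E z y D
  have h2 := mi_nonneg P E z D
  rw [mi_symm P y E, mi_symm P (fun ω => (z ω, y ω)) E]
  linarith

/-- the first part of the long letter -/
theorem mi_short (z : Ω → S) (y : Ω → Z) (E : Ω → T) (D : Ω → U) :
    mi P z E D ≤ mi P (fun ω => (z ω, y ω)) E D := by
  have h1 := mi_pair P E z y D
  have h2 := mi_nonneg P E y (fun ω => (z ω, D ω))
  rw [mi_symm P z E, mi_symm P (fun ω => (z ω, y ω)) E]
  linarith

/-- all together: the next letter `y` and any cell `C` given the base data `B ~ (z, D)` -/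
theorem mi_next (z : Ω → S) (y : Ω → Z) (E : Ω → T) (D : Ω → U) (B : Ω → V) (C : Ω → T') :
    mi P y C B ≤ mi P (fun ω => (z ω, y ω)) E D + hc P B (fun ω => (E ω, (z ω, D ω))) +
      hc P (fun ω => (z ω, D ω)) B + hc P C (fun ω => (E ω, B ω)) := by
  have h1 := mi_cell P y E C B
  have h2 := mi_move P y E (fun ω => (z ω, D ω)) B
  have h3 := mi_long P z y E D
  linarith

end info

/-! ### conditional laws -/

section cnd

variable (P : Law Ω)

/-- the conditional laws given two data with the same cell through `ω` -/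
theorem cond_eq {A : Ω → U} {B : Ω → V} {ω : Ω} (hω : 0 < P.w ω)
    (h : ∀ a, 0 < P.w a → (A a = A ω ↔ B a = B ω)) : P.cond A (A ω) = P.cond B (B ω) := by
  classical
  have h0 := P.pr_pos A hω
  have h0' := P.pr_pos B hω
  have hp : P.pr A (A ω) = P.pr B (B ω) := by
    unfold Law.pr
    rw [Finset.sum_filter, Finset.sum_filter]
    refine Finset.sum_congr rfl fun a _ => ?_
    rcases (P.nn a).eq_or_lt with e | e
    · rw [← e, ite_self, ite_self]
    · by_cases hA : A a = A ω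
      · rw [if_pos hA, if_pos ((h a e).1 hA)]
      · rw [if_neg hA, if_neg fun hB => hA ((h a e).2 hB)]
  refine law_ext fun a => ?_
  rw [P.cond_w A (A ω) h0, P.cond_w B (B ω) h0', hp]
  rcases (P.nn a).eq_or_lt with e | e
  · rw [← e, zero_div, ite_self, ite_self]
  · by_cases hA : A a = A ω
    · rw [if_pos hA, if_pos ((h a e).1 hA)]
    · rw [if_neg hA, if_neg fun hB => hA ((h a e).2 hB)]

/-- **two data**: average distance of the conditional laws of `W` given `C` and given `B` -/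
theorem dl_two (B : Ω → U) (C : Ω → V) (W : Ω → S) :
    P.ex (fun ω => dl (P.cond C (C ω)) W (P.cond B (B ω)) W) ≤
      4 * Real.sqrt (mi P C W B) + 4 * Real.sqrt (mi P B W C) := by
  have h1 := pin_dl P C W B
  have h2 := pin_dl P B W C
  have h3 : P.ex (fun ω => dl (P.cond C (C ω)) W (P.cond B (B ω)) W) ≤
      P.ex (fun ω => dl (P.cond (fun ω => (B ω, C ω)) (B ω, C ω)) W (P.cond B (B ω)) W +
        dl (P.cond (fun ω => (C ω, B ω)) (C ω, B ω)) W (P.cond C (C ω)) W) := by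
    refine P.ex_mono fun ω hω => ?_
    have e1 : P.cond (fun ω => (B ω, C ω)) (B ω, C ω) = P.cond (fun ω => (C ω, B ω)) (C ω, B ω) :=
      cond_eq P (A := fun ω => (B ω, C ω)) (B := fun ω => (C ω, B ω)) hω fun a _ => by
        simp only [Prod.mk.injEq]
        tauto
    have h4 := dl_tri (P.cond C (C ω)) W (P.cond (fun ω => (B ω, C ω)) (B ω, C ω)) W
      (P.cond B (B ω)) W
    rw [e1, dl_symm (P.cond C (C ω)) W (P.cond (fun ω => (C ω, B ω)) (C ω, B ω)) W] at h4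
    rw [e1]
    linarith
  rw [P.ex_add] at h3
  linarith

/-- **F1 in the form of laws**: `B` the base data, `z` the letter, `σ` nearly a function of `(E, B)` -/
theorem dl_base (z : Ω → S) (E : Ω → T) (D : Ω → U) (B : Ω → V) (σ : Ω → Z) :
    P.ex (fun ω => dl (P.cond (fun ω => (B ω, z ω)) (B ω, z ω)) σ (P.cond B (B ω)) σ) ≤
      4 * Real.sqrt (mi P z E D + hc P B (fun ω => (E ω, D ω)) + hc P D B +
        hc P σ (fun ω => (E ω, B ω))) := by
  refine (pin_dl P z σ B).trans ?_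
  refine mul_le_mul_of_nonneg_left (Real.sqrt_le_sqrt ?_) (by norm_num)
  have h1 := mi_cell P z E σ B
  have h2 := mi_move P z E D B
  linarith

end cnd

/-! ### copies -/

section cps

/-- average over three independent points -/
noncomputable def av3 (L : Law Ω) (f : Ω → Ω → Ω → ℝ) : ℝ :=
  L.ex fun a => L.ex fun b => L.ex fun c => f a b c

theorem av3_mono {L : Law Ω} {f g : Ω → Ω → Ω → ℝ}
    (h : ∀ a b c, 0 < L.w a → 0 < L.w b → 0 < L.w c → f a b c ≤ g a b c) : av3 L f ≤ av3 L g :=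
  L.ex_mono fun a ha => L.ex_mono fun b hb => L.ex_mono fun c hc => h a b c ha hb hc

theorem av3_nonneg {L : Law Ω} {f : Ω → Ω → Ω → ℝ}
    (h : ∀ a b c, 0 < L.w a → 0 < L.w b → 0 < L.w c → 0 ≤ f a b c) : 0 ≤ av3 L f :=
  L.ex_nonneg fun a ha => L.ex_nonneg fun b hb => L.ex_nonneg fun c hc => h a b c ha hb hc

theorem av3_mul (L : Law Ω) (k : ℝ) (f : Ω → Ω → Ω → ℝ) :
    av3 L (fun a b c => k * f a b c) = k * av3 L f := by
  unfold av3
  simp only [L.ex_const_mul]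

theorem av3_congr {L : Law Ω} {f g : Ω → Ω → Ω → ℝ}
    (h : ∀ a b c, 0 < L.w a → 0 < L.w b → 0 < L.w c → f a b c = g a b c) : av3 L f = av3 L g :=
  le_antisymm (av3_mono fun a b c ha hb hc => (h a b c ha hb hc).le)
    (av3_mono fun a b c ha hb hc => (h a b c ha hb hc).ge)

/-- change of the law of the copies -/
theorem mv3 (L L' : Law Ω) (k₁ : Ω → K₁) (k₂ : Ω → K₂) (f : K₁ → K₂ → K₂ → ℝ)
    (h0 : ∀ x y z, 0 ≤ f x y z) (h1 : ∀ x y z, f x y z ≤ 1) :
    av3 L' (fun a b c => f (k₁ a) (k₂ b) (k₂ c)) ≤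
      av3 L (fun a b c => f (k₁ a) (k₂ b) (k₂ c)) + dl L k₁ L' k₁ + 2 * dl L k₂ L' k₂ := by
  have hmem : ∀ (M : Law Ω) (g : Ω → ℝ), (∀ a, 0 ≤ g a) → (∀ a, g a ≤ 1) →
      0 ≤ M.ex g ∧ M.ex g ≤ 1 := by
    intro M g g0 g1
    refine ⟨M.ex_nonneg fun a _ => g0 a, ?_⟩
    have : M.ex g ≤ M.ex (fun _ => 1) := M.ex_mono fun a _ => g1 a
    rwa [M.ex_const] at this
  -- the third point
  have s3 : ∀ x y, L'.ex (fun c => f x y (k₂ c)) ≤ L.ex (fun c => f x y (k₂ c)) + dl L k₂ L' k₂ := by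
    intro x y
    have := ex_le_dl L' L k₂ (fun z => f x y z) 1 (fun z => by
      rw [abs_of_nonneg (h0 x y z)]
      exact h1 x y z)
    rwa [one_mul] at this
  -- the second point
  have s2 : ∀ x, L'.ex (fun b => L.ex (fun c => f x (k₂ b) (k₂ c))) ≤
      L.ex (fun b => L.ex (fun c => f x (k₂ b) (k₂ c))) + dl L k₂ L' k₂ := by
    intro x
    have := ex_le_dl L' L k₂ (fun y => L.ex (fun c => f x y (k₂ c))) 1 (fun y => by
      obtain ⟨u1, u2⟩ := hmem L (fun c => f x y (k₂ c)) (fun c => h0 _ _ _) (fun c => h1 _ _ _)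
      rwa [abs_of_nonneg u1])
    rwa [one_mul] at this
  -- the first point
  have s1 : L'.ex (fun a => L.ex (fun b => L.ex (fun c => f (k₁ a) (k₂ b) (k₂ c)))) ≤
      L.ex (fun a => L.ex (fun b => L.ex (fun c => f (k₁ a) (k₂ b) (k₂ c)))) + dl L k₁ L' k₁ := by
    have := ex_le_dl L' L k₁ (fun x => L.ex (fun b => L.ex (fun c => f x (k₂ b) (k₂ c)))) 1
      (fun x => by
      obtain ⟨u1, u2⟩ := hmem L (fun b => L.ex (fun c => f x (k₂ b) (k₂ c)))
        (fun b => (hmem L _ (fun c => h0 _ _ _) (fun c => h1 _ _ _)).1)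
        (fun b => (hmem L _ (fun c => h0 _ _ _) (fun c => h1 _ _ _)).2)
      rwa [abs_of_nonneg u1])
    rwa [one_mul] at this
  have t3 : av3 L' (fun a b c => f (k₁ a) (k₂ b) (k₂ c)) ≤
      L'.ex (fun a => L'.ex (fun b => L.ex (fun c => f (k₁ a) (k₂ b) (k₂ c)) + dl L k₂ L' k₂)) :=
    L'.ex_mono fun a _ => L'.ex_mono fun b _ => s3 _ _
  have t2 : L'.ex (fun a => L'.ex (fun b => L.ex (fun c => f (k₁ a) (k₂ b) (k₂ c)) + dl L k₂ L' k₂))
      ≤ L'.ex (fun a => L.ex (fun b => L.ex (fun c => f (k₁ a) (k₂ b) (k₂ c))) +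
        dl L k₂ L' k₂ + dl L k₂ L' k₂) := by
    refine L'.ex_mono fun a _ => ?_
    rw [L'.ex_add, L'.ex_const]
    linarith [s2 (k₁ a)]
  rw [L'.ex_add, L'.ex_add, L'.ex_const] at t2
  unfold av3 at t3 ⊢
  linarith

/-- **choice** of one triple in a good set -/
theorem pick (L : Law Ω) (g : Ω → Ω → Ω → ℝ) (hg : ∀ a b c, 0 ≤ g a b c) (G : Ω → Ω → Ω → Prop)
    {γ : ℝ} (hγ : 0 < γ) (hG : γ ≤ av3 L (fun a b c => Law.ind (G a b c))) :
    ∃ a b c, 0 < L.w a ∧ 0 < L.w b ∧ 0 < L.w c ∧ G a b c ∧ g a b c ≤ av3 L g / γ := by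
  classical
  set t : Finset (Ω × Ω × Ω) := univ.filter fun p =>
    0 < L.w p.1 ∧ 0 < L.w p.2.1 ∧ 0 < L.w p.2.2 ∧ G p.1 p.2.1 p.2.2 with ht
  have htn : t.Nonempty := by
    by_contra hcon
    rw [Finset.not_nonempty_iff_eq_empty] at hcon
    have h1 : av3 L (fun a b c => Law.ind (G a b c)) ≤ av3 L (fun _ _ _ => 0) := by
      refine av3_mono fun a b c ha hb hc => ?_
      rw [Law.ind_not]
      intro hGabc
      have : (a, b, c) ∈ t := by
        rw [ht, Finset.mem_filter]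
        exact ⟨Finset.mem_univ _, ha, hb, hc, hGabc⟩
      rw [hcon] at this
      exact absurd this (Finset.notMem_empty _)
    have h2 : av3 L (fun _ _ _ => (0 : ℝ)) = 0 := by
      unfold av3
      simp only [L.ex_const]
    linarith
  obtain ⟨p, hp, hmin⟩ := Finset.exists_min_image t (fun p => g p.1 p.2.1 p.2.2) htn
  rw [ht, Finset.mem_filter] at hp
  obtain ⟨-, p1, p2, p3, p4⟩ := hp
  refine ⟨p.1, p.2.1, p.2.2, p1, p2, p3, p4, ?_⟩
  rw [le_div_iff₀ hγ]
  have h3 : g p.1 p.2.1 p.2.2 * av3 L (fun a b c => Law.ind (G a b c)) ≤ av3 L g := by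
    rw [← av3_mul]
    refine av3_mono fun a b c ha hb hc => ?_
    by_cases hGabc : G a b c
    · rw [Law.ind_of hGabc, mul_one]
      refine hmin (a, b, c) ?_
      rw [ht, Finset.mem_filter]
      exact ⟨Finset.mem_univ _, ha, hb, hc, hGabc⟩
    · rw [Law.ind_not hGabc, mul_zero]
      exact hg _ _ _
  exact (mul_le_mul_of_nonneg_left hG (hg _ _ _)).trans h3

end cps

/-! ### one triple of copies for all the strip cells -/

section strip

theorem ex_comm {Ω' : Type} [Fintype Ω'] (L : Law Ω) (Q : Law Ω') (f : Ω → Ω' → ℝ) :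
    L.ex (fun a => Q.ex (fun b => f a b)) = Q.ex (fun b => L.ex (fun a => f a b)) := by
  unfold Law.ex
  simp only [Finset.mul_sum]
  rw [Finset.sum_comm]
  exact Finset.sum_congr rfl fun b _ => Finset.sum_congr rfl fun a _ => by ring

theorem av3_comm {Ω' : Type} [Fintype Ω'] (L : Law Ω) (Q : Law Ω') (f : Ω → Ω → Ω → Ω' → ℝ) :
    av3 L (fun a b c => Q.ex (fun d => f a b c d)) = Q.ex (fun d => av3 L (fun a b c => f a b c d)) := by
  have h1 : ∀ a b, L.ex (fun c => Q.ex (fun d => f a b c d)) =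
      Q.ex (fun d => L.ex (fun c => f a b c d)) := fun a b => ex_comm L Q _
  have h2 : ∀ a, L.ex (fun b => Q.ex (fun d => L.ex (fun c => f a b c d))) =
      Q.ex (fun d => L.ex (fun b => L.ex (fun c => f a b c d))) := fun a => ex_comm L Q _
  have h3 : L.ex (fun a => Q.ex (fun d => L.ex (fun b => L.ex (fun c => f a b c d)))) =
      Q.ex (fun d => L.ex (fun a => L.ex (fun b => L.ex (fun c => f a b c d)))) := ex_comm L Q _
  unfold av3
  simp only [h1, h2, h3]

/-- **STRIPS**: approximate self-couplings in the strip cells `C` over the base data `B`, with copies drawn in the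
strip cell, give approximate self-couplings of the law given `B`, with one triple of copies (depending on the value
of `B` only, good, of the law `L`) for all the strip cells -/
theorem strips (P : Law Ω) (B : Ω → U) (C : Ω → V) (L : U → Law Ω) (k₁ : Ω → K₁) (k₂ : Ω → K₂)
    (R : U → K₁ → K₂ → K₂ → Ω → Ω → Prop) (er : U → V → K₁ → K₂ → K₂ → ℝ)
    (er0 : ∀ β v x y z, 0 ≤ er β v x y z)
    (hsub : ∀ ω a b c, 0 < P.w ω → 0 < (P.cond C (C ω)).w a → 0 < (P.cond C (C ω)).w b →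
      0 < (P.cond C (C ω)).w c →
      SubC (P.cond (fun ω => (C ω, B ω)) (C ω, B ω)) (P.cond (fun ω => (C ω, B ω)) (C ω, B ω))
        (R (B ω) (k₁ a) (k₂ b) (k₂ c)) (er (B ω) (C ω) (k₁ a) (k₂ b) (k₂ c)))
    (Good : U → K₁ → K₂ → K₂ → Prop) (Bad : U → Prop) {γ : ℝ} (hγ : 0 < γ)
    (hgood : ∀ ω, 0 < P.w ω → ¬ Bad (B ω) →
      γ ≤ av3 (L (B ω)) (fun a b c => Law.ind (Good (B ω) (k₁ a) (k₂ b) (k₂ c)))) :
    ∃ (c₁ : U → K₁) (c₂ c₃ : U → K₂) (e : U → ℝ), (∀ β, 0 ≤ e β) ∧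
      (∀ ω, 0 < P.w ω → ¬ Bad (B ω) → Good (B ω) (c₁ (B ω)) (c₂ (B ω)) (c₃ (B ω)) ∧
        ∃ a b c, 0 < (L (B ω)).w a ∧ 0 < (L (B ω)).w b ∧ 0 < (L (B ω)).w c ∧
          k₁ a = c₁ (B ω) ∧ k₂ b = c₂ (B ω) ∧ k₂ c = c₃ (B ω)) ∧
      (∀ ω, 0 < P.w ω → SubC (P.cond B (B ω)) (P.cond B (B ω))
        (fun a b => C a = C b ∧ R (B ω) (c₁ (B ω)) (c₂ (B ω)) (c₃ (B ω)) a b) (e (B ω))) ∧
      P.ex (fun ω => e (B ω)) ≤
        (P.ex (fun ω => av3 (P.cond C (C ω)) (fun a b c => er (B ω) (C ω) (k₁ a) (k₂ b) (k₂ c))) +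
          P.ex (fun ω => dl (P.cond C (C ω)) k₁ (L (B ω)) k₁) +
          2 * P.ex (fun ω => dl (P.cond C (C ω)) k₂ (L (B ω)) k₂)) / γ +
        P.ex (fun ω => Law.ind (Bad (B ω))) := by
  classical
  have hne : Nonempty Ω := by
    by_contra hcon
    rw [not_nonempty_iff] at hcon
    have := P.sum_one
    simp at this
  obtain ⟨ω0⟩ := hne
  -- the truncated error
  let sup : V → K₁ → K₂ → K₂ → Prop := fun v x y z => ∃ a b c, 0 < (P.cond C v).w a ∧
    0 < (P.cond C v).w b ∧ 0 < (P.cond C v).w c ∧ k₁ a = x ∧ k₂ b = y ∧ k₂ c = z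
  let f : U → V → K₁ → K₂ → K₂ → ℝ := fun β v x y z =>
    if sup v x y z then min 1 (er β v x y z) else 1
  have f0 : ∀ β v x y z, 0 ≤ f β v x y z := by
    intro β v x y z
    simp only [f]
    split_ifs
    · exact le_min zero_le_one (er0 _ _ _ _ _)
    · exact zero_le_one
  have f1 : ∀ β v x y z, f β v x y z ≤ 1 := by
    intro β v x y z
    simp only [f]
    split_ifs
    · exact min_le_left _ _
    · exact le_rfl
  have hsub' : ∀ ω x y z, 0 < P.w ω →
      SubC (P.cond (fun ω => (C ω, B ω)) (C ω, B ω)) (P.cond (fun ω => (C ω, B ω)) (C ω, B ω))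
        (R (B ω) x y z) (f (B ω) (C ω) x y z) := by
    intro ω x y z hω
    simp only [f]
    split_ifs with hs
    · obtain ⟨a, b, c, ha, hb, hc, rfl, rfl, rfl⟩ := hs
      rcases le_total (er (B ω) (C ω) (k₁ a) (k₂ b) (k₂ c)) 1 with h | h
      · rw [min_eq_right h]
        exact hsub ω a b c hω ha hb hc
      · rw [min_eq_left h]
        exact SubC.triv le_rfl
    · exact SubC.triv le_rfl
  -- mixing over the strip cells
  have hmix : ∀ ω x y z, 0 < P.w ω → SubC (P.cond B (B ω)) (P.cond B (B ω))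
      (fun a b => C a = C b ∧ R (B ω) x y z a b)
      ((P.cond B (B ω)).ex (fun ω' => f (B ω) (C ω') x y z)) := by
    intro ω x y z hω
    refine SubC.mix (P.cond B (B ω)) C (fun _ => R (B ω) x y z) (fun v => f (B ω) v x y z)
      fun a ha => ?_
    obtain ⟨e1, e2⟩ := Vale.Agent.P127.U.Pin.cond_supp P B (P.pr_pos B hω) ha
    have h3 : (P.cond B (B ω)).cond C (C a) = P.cond (fun ω => (C ω, B ω)) (C a, B a) := by
      rw [← e1]
      exact Vale.Agent.P127.S.StepEx.cond_cond e2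
    rw [h3, ← e1]
    exact hsub' a x y z e2
  -- the choice
  have hch : ∀ β : U, ∃ (x : K₁) (y z : K₂) (e : ℝ), 0 ≤ e ∧ ∀ ω, 0 < P.w ω → B ω = β →
      (¬ Bad β → Good β x y z ∧ ∃ a b c, 0 < (L β).w a ∧ 0 < (L β).w b ∧ 0 < (L β).w c ∧
        k₁ a = x ∧ k₂ b = y ∧ k₂ c = z) ∧
      SubC (P.cond B β) (P.cond B β) (fun a b => C a = C b ∧ R β x y z a b) e ∧
      e ≤ (P.cond B β).ex (fun ω' => av3 (L β) (fun a b c => f β (C ω') (k₁ a) (k₂ b) (k₂ c))) / γ +
        Law.ind (Bad β) := by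
    intro β
    by_cases hβ : ∃ ω, 0 < P.w ω ∧ B ω = β ∧ ¬ Bad β
    · obtain ⟨ω, hω, rfl, hb⟩ := hβ
      obtain ⟨a, b, c, ha, hb', hc, hG, hle⟩ := pick (L (B ω))
        (fun a b c => (P.cond B (B ω)).ex (fun ω' => f (B ω) (C ω') (k₁ a) (k₂ b) (k₂ c)))
        (fun a b c => Law.ex_nonneg _ fun _ _ => f0 _ _ _ _ _)
        (fun a b c => Good (B ω) (k₁ a) (k₂ b) (k₂ c)) hγ (hgood ω hω hb)
      refine ⟨k₁ a, k₂ b, k₂ c, (P.cond B (B ω)).ex (fun ω' => f (B ω) (C ω') (k₁ a) (k₂ b) (k₂ c)),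
        Law.ex_nonneg _ fun _ _ => f0 _ _ _ _ _, fun ω₁ _ _ => ⟨fun _ => ⟨hG, a, b, c, ha, hb', hc,
          rfl, rfl, rfl⟩, hmix ω _ _ _ hω, ?_⟩⟩
      rw [av3_comm] at hle
      rw [Law.ind_not hb, add_zero]
      exact hle
    · refine ⟨k₁ ω0, k₂ ω0, k₂ ω0, 1, zero_le_one, fun ω hω hB => ?_⟩
      have hbad : Bad β := by
        by_contra hcon
        exact hβ ⟨ω, hω, hB, hcon⟩
      refine ⟨fun h => absurd hbad h, SubC.triv le_rfl, ?_⟩
      rw [Law.ind_of hbad]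
      have : 0 ≤ (P.cond B β).ex (fun ω' => av3 (L β) (fun a b c =>
          f β (C ω') (k₁ a) (k₂ b) (k₂ c))) / γ :=
        div_nonneg (Law.ex_nonneg _ fun _ _ => av3_nonneg fun _ _ _ _ _ _ => f0 _ _ _ _ _) hγ.le
      linarith
  choose c₁ c₂ c₃ e he0 he using hch
  refine ⟨c₁, c₂, c₃, e, he0, fun ω hω hb => (he (B ω) ω hω rfl).1 hb,
    fun ω hω => (he (B ω) ω hω rfl).2.1, ?_⟩
  -- the average
  set F : Ω → ℝ := fun ω => av3 (L (B ω)) (fun a b c => f (B ω) (C ω) (k₁ a) (k₂ b) (k₂ c)) with hF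
  have s1 : P.ex (fun ω => e (B ω)) ≤
      P.ex (fun ω => (1 / γ) * (P.cond B (B ω)).ex F + Law.ind (Bad (B ω))) := by
    refine P.ex_mono fun ω hω => ?_
    have h1 := (he (B ω) ω hω rfl).2.2
    have h2 : (P.cond B (B ω)).ex (fun ω' => av3 (L (B ω)) (fun a b c =>
        f (B ω) (C ω') (k₁ a) (k₂ b) (k₂ c))) = (P.cond B (B ω)).ex F := by
      refine Law.ex_congr _ fun a ha => ?_
      obtain ⟨e1, -⟩ := Vale.Agent.P127.U.Pin.cond_supp P B (P.pr_pos B hω) ha
      simp only [hF]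
      rw [e1]
    rw [h2] at h1
    rw [one_div, inv_mul_eq_div]
    exact h1
  have s2 : P.ex F ≤ P.ex (fun ω =>
      av3 (P.cond C (C ω)) (fun a b c => er (B ω) (C ω) (k₁ a) (k₂ b) (k₂ c)) +
        dl (P.cond C (C ω)) k₁ (L (B ω)) k₁ + 2 * dl (P.cond C (C ω)) k₂ (L (B ω)) k₂) := by
    refine P.ex_mono fun ω hω => ?_
    have h1 := mv3 (P.cond C (C ω)) (L (B ω)) k₁ k₂ (fun x y z => f (B ω) (C ω) x y z)
      (fun x y z => f0 _ _ _ _ _) (fun x y z => f1 _ _ _ _ _)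
    have h2 : av3 (P.cond C (C ω)) (fun a b c => f (B ω) (C ω) (k₁ a) (k₂ b) (k₂ c)) ≤
        av3 (P.cond C (C ω)) (fun a b c => er (B ω) (C ω) (k₁ a) (k₂ b) (k₂ c)) := by
      refine av3_mono fun a b c ha hb hc => ?_
      simp only [f]
      rw [if_pos ⟨a, b, c, ha, hb, hc, rfl, rfl, rfl⟩]
      exact min_le_right _ _
    simp only [hF]
    linarith
  rw [P.ex_add, P.ex_const_mul, Vale.Agent.P127.U.Pin.ex_cond] at s1
  rw [P.ex_add, P.ex_add, P.ex_const_mul] at s2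
  refine s1.trans (add_le_add (le_trans (mul_le_mul_of_nonneg_left s2 (by positivity))
    (le_of_eq ?_)) le_rfl)
  rw [one_div, inv_mul_eq_div]

end strip

/-! ### the chain of the M-step in the strip cells -/

section main

theorem il_congr (P : Law Ω) {A A' : Ω → S} (Y : Ω → T) (h : ∀ ω, 0 < P.w ω → A ω = A' ω) :
    il P A Y = il P A' Y := by
  rw [il_symm P A, il_symm P A', il_eq_ex, il_eq_ex]
  refine P.ex_congr fun ω hω => ?_
  refine dl_congr _ _ (fun a ha => ?_) h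
  exact h a (Vale.Agent.P127.U.Pin.cond_supp P Y (P.pr_pos Y hω) ha).2

/-- the chain of the M-step between two points of one cell `(D, Θ)`: copy `θ'` of the own letter, blocks `x, x'` -/
def Ch (P : Law Ω) (D : Ω → U) (Θ : Ω → T) (W : Ω → S) (E : Ω → Z) (y : Ω → X) (θ' : T) (x x' : X) (a b : Ω) :
    Prop :=
  ∃ a₁ a₂ a₃ a₄, (0 < P.w a ∧ 0 < P.w a₁ ∧ 0 < P.w a₂ ∧ 0 < P.w a₃ ∧ 0 < P.w a₄ ∧ 0 < P.w b) ∧
    (D a₁ = D a ∧ D a₂ = D a ∧ D a₃ = D a ∧ D a₄ = D a ∧ D b = D a) ∧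
    (Θ a₁ = Θ a ∧ Θ a₂ = θ' ∧ Θ a₃ = θ' ∧ Θ a₄ = Θ a ∧ Θ b = Θ a) ∧
    (E a = E a₁ ∧ W a₁ = W a₂ ∧ E a₂ = E a₃ ∧ W a₃ = W a₄ ∧ E a₄ = E b) ∧
    (y a₁ = x ∧ y a₂ = x ∧ y a₃ = x' ∧ y a₄ = x')

variable (P : Law Ω) (B : Ω → U) (C : Ω → V) (Θ : Ω → T) (W : Ω → S) (E : Ω → Z) (e : U × V → S → X)

/-- the strip cell together with the base data -/
def St (ω : Ω) : U × V := (B ω, C ω)

/-- the base data with the own letter -/
def Ba (ω : Ω) : U × T := (B ω, Θ ω)

/-- the next block of the direction -/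
def yb (ω : Ω) : X := e (B ω, C ω) (W ω)

/-- **[GPROD]**: the M-step in the strip cells `C` over the base data `B` (own letter `Θ`, line data `W`, later
cell `E`, next block `e (B, C) W`): for every value of `(B, Θ)` one copy `θ'` and two blocks `x, x'`, the same for
all the strip cells, from any good set -/
theorem gprod (Good : U × T → T → X → X → Prop) (Bad : U × T → Prop) {γ : ℝ} (hγ : 0 < γ)
    (hgood : ∀ ω, 0 < P.w ω → ¬ Bad (Ba B Θ ω) → γ ≤ av3 (P.cond B (B ω)) (fun a b c =>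
      Law.ind (Good (Ba B Θ ω) (Θ a) (yb B C W e b) (yb B C W e c)))) :
    ∃ (θ' : U × T → T) (x x' : U × T → X) (er : U × T → ℝ), (∀ β, 0 ≤ er β) ∧
      (∀ ω, 0 < P.w ω → ¬ Bad (Ba B Θ ω) →
        Good (Ba B Θ ω) (θ' (Ba B Θ ω)) (x (Ba B Θ ω)) (x' (Ba B Θ ω)) ∧
        ∃ a b c, 0 < P.w a ∧ 0 < P.w b ∧ 0 < P.w c ∧ B a = B ω ∧ B b = B ω ∧ B c = B ω ∧
          Θ a = θ' (Ba B Θ ω) ∧ yb B C W e b = x (Ba B Θ ω) ∧ yb B C W e c = x' (Ba B Θ ω)) ∧
      (∀ ω, 0 < P.w ω → SubC (P.cond (Ba B Θ) (Ba B Θ ω)) (P.cond (Ba B Θ) (Ba B Θ ω))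
        (Ch P (St B C) Θ W E (yb B C W e) (θ' (Ba B Θ ω)) (x (Ba B Θ ω)) (x' (Ba B Θ ω)))
        (er (Ba B Θ ω))) ∧
      P.ex (fun ω => er (Ba B Θ ω)) ≤
        (8 * Real.sqrt (mi P (yb B C W e) E (fun ω => (St B C ω, Θ ω))) +
          64 * Real.sqrt (mi P Θ W (St B C)) + 4 * Real.sqrt (mi P C Θ B) +
          8 * Real.sqrt (mi P C (yb B C W e) B)) / γ + P.ex (fun ω => Law.ind (Bad (Ba B Θ ω))) := by
  classical
  set D : Ω → U × V := St B C with hD
  set y : Ω → X := yb B C W e with hy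
  set Dt : Ω → (U × V) × T := fun ω => (D ω, Θ ω) with hDt
  have hDts : ∀ ω, 0 < P.w ω → ∀ a, 0 < (P.cond Dt (Dt ω)).w a →
      D a = D ω ∧ Θ a = Θ ω ∧ 0 < P.w a := fun ω hω a h' => by
    have h1 := Vale.Agent.P127.U.Pin.cond_supp P Dt (P.pr_pos Dt hω) h'
    exact ⟨(Prod.mk.inj h1.1).1, (Prod.mk.inj h1.1).2, h1.2⟩
  have hye : ∀ ω a, D a = D ω → e (D ω) (W a) = y a := by
    intro ω a h
    rw [← h]
    rfl
  have hB : ∀ ω a, D a = D ω → B a = B ω := fun ω a h => (Prod.mk.inj h).1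
  -- the errors
  let er : U × T → U × V → T → X → X → ℝ := fun β v θ' x x' =>
    erC (P.cond Dt (v, β.2)) (P.cond Dt (v, θ')) W E (fun a => e v (W a)) x x'
  obtain ⟨c₁, c₂, c₃, f, h1, h2, h3, h4⟩ := strips P (Ba B Θ) D (fun β => P.cond B β.1) Θ y
    (fun β θ' x x' a b => 0 < P.w a ∧ 0 < P.w b ∧ Ba B Θ a = β ∧ Ba B Θ b = β ∧
      (D a = D b → Ch P D Θ W E y θ' x x' a b)) er
    (fun _ _ _ _ _ => erC_nonneg _ _ _ _ _ _ _) (by
      intro ω a₀ b₀ c₀ hω ha hb hc
      obtain ⟨u1, u2⟩ := Vale.Agent.P127.U.Pin.cond_supp P D (P.pr_pos D hω) ha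
      have q1 : P.cond (fun ω => (D ω, Ba B Θ ω)) (D ω, Ba B Θ ω) = P.cond Dt (Dt ω) :=
        cond_eq P (A := fun ω => (D ω, Ba B Θ ω)) (B := Dt) hω fun a _ => by
          simp only [hDt, Prod.mk.injEq]
          constructor
          · rintro ⟨k1, k2⟩
            exact ⟨k1, (Prod.mk.inj k2).2⟩
          · rintro ⟨k1, k2⟩
            exact ⟨k1, Prod.ext (hB ω a k1) k2⟩
      rw [q1]
      have q2 : P.cond Dt (D ω, Θ a₀) = P.cond Dt (Dt a₀) := by rw [← u1]
      have q3 := chain5 (P.cond Dt (Dt ω)) (P.cond Dt (Dt a₀)) W E (fun a => e (D ω) (W a))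
        (y b₀) (y c₀)
      have q4 : er (Ba B Θ ω) (D ω) (Θ a₀) (y b₀) (y c₀) =
          erC (P.cond Dt (Dt ω)) (P.cond Dt (Dt a₀)) W E (fun a => e (D ω) (W a)) (y b₀) (y c₀) := by
        simp only [er]
        rw [q2]
        rfl
      rw [q4]
      refine q3.mono ?_ le_rfl
      rintro a b ⟨a₁, a₂, a₃, a₄, p0, p1, p2, p3, p4, p5, r1, r2, r3, r4, r5, r6, r7⟩
      obtain ⟨v1, v2, v3⟩ := hDts ω hω a p0
      obtain ⟨w1, w2, w3⟩ := hDts ω hω b p5
      obtain ⟨i1, i2, i3⟩ := hDts ω hω a₁ p1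
      obtain ⟨j1, j2, j3⟩ := hDts a₀ u2 a₂ p2
      obtain ⟨k1, k2, k3⟩ := hDts a₀ u2 a₃ p3
      obtain ⟨l1, l2, l3⟩ := hDts ω hω a₄ p4
      rw [u1] at j1 k1
      refine ⟨v3, w3, Prod.ext (hB ω a v1) v2, Prod.ext (hB ω b w1) w2, fun _ => ?_⟩
      refine ⟨a₁, a₂, a₃, a₄, ⟨v3, i3, j3, k3, l3, w3⟩,
        ⟨i1.trans v1.symm, j1.trans v1.symm, k1.trans v1.symm, l1.trans v1.symm,
          w1.trans v1.symm⟩,
        ⟨i2.trans v2.symm, j2, k2, l2.trans v2.symm, w2.trans v2.symm⟩, ⟨r1, r2, r3, r4, r5⟩, ?_⟩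
      have r6' : e (D ω) (W a₁) = y b₀ := r6
      have r7' : e (D ω) (W a₄) = y c₀ := r7
      have m1 : y a₂ = y b₀ := by rw [← hye ω a₂ j1, ← r2]; exact r6'
      have m2 : y a₃ = y c₀ := by rw [← hye ω a₃ k1, r4]; exact r7'
      exact ⟨(hye ω a₁ i1).symm.trans r6', m1, m2, (hye ω a₄ l1).symm.trans r7'⟩)
    Good Bad hγ hgood
  refine ⟨c₁, c₂, c₃, f, h1, fun ω hω hb => ?_, fun ω hω => ?_, h4.trans ?_⟩
  · obtain ⟨g1, a, b, c, g2, g3, g4, g5, g6, g7⟩ := h2 ω hω hb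
    have hs : ∀ a, 0 < (P.cond B (B ω)).w a → B a = B ω ∧ 0 < P.w a := fun a ha =>
      Vale.Agent.P127.U.Pin.cond_supp P B (P.pr_pos B hω) ha
    exact ⟨g1, a, b, c, (hs a g2).2, (hs b g3).2, (hs c g4).2, (hs a g2).1, (hs b g3).1,
      (hs c g4).1, g5, g6, g7⟩
  · refine (h3 ω hω).mono ?_ le_rfl
    rintro a b ⟨k1, k2, k3, k4, k5, k6⟩
    exact k6 k1
  · -- the average error
    refine add_le_add (div_le_div_of_nonneg_right ?_ hγ.le) le_rfl
    have b1 : P.ex (fun ω => dl (P.cond D (D ω)) Θ (P.cond B (Ba B Θ ω).1) Θ) ≤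
        4 * Real.sqrt (mi P C Θ B) := pin_dl P C Θ B
    have b2 : P.ex (fun ω => dl (P.cond D (D ω)) y (P.cond B (Ba B Θ ω).1) y) ≤
        4 * Real.sqrt (mi P C y B) := pin_dl P C y B
    let J : Ω → ℝ := fun ω => il (P.cond Dt (Dt ω)) y E
    let K : Ω → ℝ := fun ω => dl (P.cond Dt (Dt ω)) W (P.cond D (D ω)) W
    have hJ : P.ex J ≤ 4 * Real.sqrt (mi P y E Dt) := pin_il P y E Dt
    have hK : P.ex K ≤ 4 * Real.sqrt (mi P Θ W D) := pin_dl P Θ W D
    have hJ2 : P.ex (fun ω => (P.cond D (D ω)).ex J) = P.ex J :=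
      Vale.Agent.P127.U.Pin.ex_cond P D J
    have hK2 : P.ex (fun ω => (P.cond D (D ω)).ex K) = P.ex K :=
      Vale.Agent.P127.U.Pin.ex_cond P D K
    have b3 : P.ex (fun ω => av3 (P.cond D (D ω)) (fun a b c =>
        er (Ba B Θ ω) (D ω) (Θ a) (y b) (y c))) ≤
        P.ex (fun ω => J ω + (P.cond D (D ω)).ex J + 8 * K ω + 8 * (P.cond D (D ω)).ex K) := by
      refine P.ex_mono fun ω hω => ?_
      set R := P.cond D (D ω) with hR
      have hRs : ∀ a, 0 < R.w a → D a = D ω ∧ 0 < P.w a := fun a ha =>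
        Vale.Agent.P127.U.Pin.cond_supp P D (P.pr_pos D hω) ha
      have c1 : av3 R (fun a b c => er (Ba B Θ ω) (D ω) (Θ a) (y b) (y c)) ≤
          R.ex (fun a => J ω + J a + 8 * K ω + 8 * K a) := by
        unfold av3
        refine R.ex_mono fun a ha => ?_
        obtain ⟨u1, u2⟩ := hRs a ha
        have d1 := chain5_err (P.cond Dt (Dt ω)) (P.cond Dt (Dt a)) R W E (e (D ω))
        have d2 : R.ex (fun b => R.ex (fun c => er (Ba B Θ ω) (D ω) (Θ a) (y b) (y c))) =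
            R.ex (fun b => R.ex (fun c => erC (P.cond Dt (Dt ω)) (P.cond Dt (Dt a)) W E
              (fun a => e (D ω) (W a)) (e (D ω) (W b)) (e (D ω) (W c)))) := by
          refine R.ex_congr fun b hb => R.ex_congr fun c hc => ?_
          rw [hye ω b (hRs b hb).1, hye ω c (hRs c hc).1]
          simp only [er]
          have q2 : P.cond Dt (D ω, Θ a) = P.cond Dt (Dt a) := by rw [← u1]
          rw [q2]
          rfl
        rw [d2]
        refine d1.trans ?_
        have d3 : il (P.cond Dt (Dt ω)) (fun a => e (D ω) (W a)) E = J ω :=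
          il_congr _ E fun a' ha' => hye ω a' (hDts ω hω a' ha').1
        have d4 : il (P.cond Dt (Dt a)) (fun a => e (D ω) (W a)) E = J a :=
          il_congr _ E fun a' ha' => hye ω a' ((hDts a u2 a' ha').1.trans u1)
        have d5 : dl (P.cond Dt (Dt a)) W R W = K a := by
          simp only [K, hR]
          rw [u1]
        rw [d3, d4, d5]
      refine c1.trans (le_of_eq ?_)
      simp only [R.ex_add, R.ex_const_mul, R.ex_const]
    rw [P.ex_add, P.ex_add, P.ex_add, P.ex_const_mul, P.ex_const_mul, hJ2, hK2] at b3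
    linarith

/-! ### the four informations -/

/-- **the four informations of `gprod`** from F1 at the base cap (`z` the prefix, `D₁` the base cell, `E₁` the later
base cell) and F2 at the caps (`C'` the cell of the lower cap) -/
theorem gprod_le {D₁' E₁' z' C'' : Type*} (D₁ : Ω → D₁') (E₁ : Ω → E₁') (z : Ω → z') (C' : Ω → C'') :
    mi P (yb B C W e) E (fun ω => (St B C ω, Θ ω)) ≤
        mi P (yb B C W e) E (fun ω => (C ω, Θ ω)) + hc P B C ∧
      mi P Θ W (St B C) ≤ mi P Θ W C + hc P B C ∧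
      mi P C Θ B ≤ mi P Θ C C' + hc P B (fun ω => (C ω, C' ω)) + hc P C' B ∧
      mi P C (yb B C W e) B ≤ mi P (fun ω => (z ω, yb B C W e ω)) E₁ D₁ +
        hc P B (fun ω => (E₁ ω, (z ω, D₁ ω))) + hc P (fun ω => (z ω, D₁ ω)) B +
        hc P C (fun ω => (E₁ ω, B ω)) := by
  refine ⟨?_, ?_, ?_, ?_⟩
  · have h1 := mi_move P (yb B C W e) E (fun ω => (C ω, Θ ω)) (fun ω => (St B C ω, Θ ω))
    have h2 : hc P (fun ω => (C ω, Θ ω)) (fun ω => (St B C ω, Θ ω)) = 0 :=
      hc_zero P fun ω ω' _ _ h => by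
        simp only [St, Prod.mk.injEq] at h ⊢
        exact ⟨h.1.2, h.2⟩
    have h3 : hc P (fun ω => (St B C ω, Θ ω)) (fun ω => (E ω, (C ω, Θ ω))) ≤ hc P B C := by
      refine (hc_mono_left P (X' := B) fun ω ω' _ _ h => ?_).trans
        (hc_mono_right P B fun ω ω' _ _ h => ?_)
      · simp only [St, Prod.mk.injEq] at h ⊢
        exact ⟨⟨h.1, h.2.2.1⟩, h.2.2.2⟩
      · simp only [Prod.mk.injEq] at h ⊢
        exact h.2.1
    linarith
  · have h1 := mi_move P Θ W C (St B C)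
    have h2 : hc P C (St B C) = 0 :=
      hc_zero P fun ω ω' _ _ h => by
        simp only [St, Prod.mk.injEq] at h
        exact h.2
    have h3 : hc P (St B C) (fun ω => (W ω, C ω)) ≤ hc P B C := by
      refine (hc_mono_left P (X' := B) fun ω ω' _ _ h => ?_).trans
        (hc_mono_right P B fun ω ω' _ _ h => ?_)
      · simp only [St, Prod.mk.injEq] at h ⊢
        exact ⟨h.1, h.2.2⟩
      · simp only [Prod.mk.injEq] at h ⊢
        exact h.2
    linarith
  · rw [mi_symm]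
    exact mi_move P Θ C C' B
  · rw [mi_symm]
    exact mi_next P z (yb B C W e) E₁ D₁ B C

end main

/-! ### the sum over the steps -/

/-- Cauchy-Schwarz for square roots -/
theorem sum_sqrt {ι : Type*} (s : Finset ι) (f : ι → ℝ) (hf : ∀ i ∈ s, 0 ≤ f i) :
    ∑ i ∈ s, Real.sqrt (f i) ≤ Real.sqrt (s.card * ∑ i ∈ s, f i) := by
  refine Real.le_sqrt_of_sq_le ?_
  have h := Finset.sum_mul_sq_le_sq_mul_sq s (fun _ => (1 : ℝ)) (fun i => Real.sqrt (f i))
  simp only [one_mul, one_pow, Finset.sum_const, nsmul_eq_mul, mul_one] at h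
  refine h.trans (le_of_eq ?_)
  congr 1
  exact Finset.sum_congr rfl fun i hi => Real.sq_sqrt (hf i hi)

/-- Markov: few steps with a large value -/
theorem card_large {ι : Type*} (s : Finset ι) (f : ι → ℝ) (hf : ∀ i ∈ s, 0 ≤ f i) {η : ℝ} (hη : 0 < η)
    {t : Finset ι} (ht : t ⊆ s) (h : ∀ i ∈ t, η ≤ f i) : (t.card : ℝ) ≤ (∑ i ∈ s, f i) / η := by
  rw [le_div_iff₀ hη]
  calc (t.card : ℝ) * η = ∑ i ∈ t, η := by rw [Finset.sum_const, nsmul_eq_mul]
    _ ≤ ∑ i ∈ t, f i := Finset.sum_le_sum h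
    _ ≤ ∑ i ∈ s, f i := Finset.sum_le_sum_of_subset_of_nonneg ht fun i hi _ => hf i hi

/-- **F1 at the base cap, summed over the steps**, with square roots: `C j` the base cells, `z` the long letter -/
theorem tele_sqrt (P : Law Ω) (z : Ω → T) (C : ℕ → Ω → S) (ν : ℕ → ℝ) (n M : ℕ) {H : ℝ}
    (hν : ∀ j < n, hc P (C j) (C (j + M)) ≤ ν j) (hH : ∀ j < M, hc P z (C j) ≤ H) :
    ∑ j ∈ range n, Real.sqrt (mi P z (C (j + M)) (C j)) ≤
      Real.sqrt (n * (M * H + ∑ j ∈ range n, ν j)) := by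
  refine (sum_sqrt (range n) _ fun j _ => mi_nonneg P _ _ _).trans ?_
  rw [Finset.card_range]
  exact Real.sqrt_le_sqrt (mul_le_mul_of_nonneg_left
    (Vale.Agent.P106.U.H833.tele_near P z C ν n M hν hH) (Nat.cast_nonneg _))

end Vale.Agent.P106.U.H535
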